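import Vale.Agent.P307.FIN

/-!
# P307: eventual categoricity in ZFC for AECs with bounded Gaifman components

No amalgamation, joint embedding, tameness or large cardinals are assumed.
-/

open FirstOrder FirstOrder.Language Cardinal

universe u

namespace Vale.Agent.Results.P307.BoundedComponents

open Vale.Agent.P307

/-- Let `l` be a cardinal and let `K` be an abstract elementary class with `LS(K) ≤ l` such that in
every model all connected components of the Gaifman graph have at most `l` elements.  If `K` is
categorical in some `κ > 2 ^ l` then it is categorical in every `κ' > 2 ^ l`. -/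
theorem result (l : Cardinal.{u}) (L : Language.{u, u}) (K : AEC L) (hLS : K.LS ≤ l)
    (hb : ∀ (M : Type u) [L.Structure M], K.Mem M → ∀ x : M, #(component L x) ≤ l)
    (κ κ' : Cardinal.{u}) (hκ : 2 ^ l < κ) (hκ' : 2 ^ l < κ') (h : K.Categorical κ) :
    K.Categorical κ' := by
  have hmem := csInf_mem (s := {l : Cardinal.{u} | ℵ₀ ≤ l ∧ L.card ≤ l ∧
    ∀ (M : Type u) [L.Structure M], K.Mem M → ∀ A : Set M, ∃ S : L.Substructure M,
      A ⊆ S ∧ K.Le S ⊤ ∧ #S ≤ #A + l}) K.exists_ls
  have h1 : ℵ₀ ≤ K.LS := hmem.1
  have h2 : L.card ≤ K.LS := hmem.2.1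
  exact transfer K (h1.trans hLS) (h2.trans hLS) hLS hb hκ hκ' h

end Vale.Agent.Results.P307.BoundedComponents
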