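import Vale.Agent.P307.FIN

/-!
# P307: eventual categoricity in ZFC for AECs in unary vocabularies
-/

open FirstOrder FirstOrder.Language Cardinal

universe u

namespace Vale.Agent.Results.P307.UnaryVocabulary

open Vale.Agent.P307

/-- Let the vocabulary `L` consist of constants and of relation symbols of arity at most one (any
number of them).  Every abstract elementary class `K` with `LS(K) ≤ l` that is categorical in some
`κ > 2 ^ l` is categorical in every `κ' > 2 ^ l`. -/
theorem result (l : Cardinal.{u}) (L : Language.{u, u}) (hf : ∀ n, IsEmpty (L.Functions (n + 1)))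
    (hr : ∀ n, IsEmpty (L.Relations (n + 2))) (K : AEC L) (hLS : K.LS ≤ l)
    (κ κ' : Cardinal.{u}) (hκ : 2 ^ l < κ) (hκ' : 2 ^ l < κ') (h : K.Categorical κ) :
    K.Categorical κ' := by
  have hmem := csInf_mem (s := {l : Cardinal.{u} | ℵ₀ ≤ l ∧ L.card ≤ l ∧
    ∀ (M : Type u) [L.Structure M], K.Mem M → ∀ A : Set M, ∃ S : L.Substructure M,
      A ⊆ S ∧ K.Le S ⊤ ∧ #S ≤ #A + l}) K.exists_ls
  have h1 : ℵ₀ ≤ K.LS := hmem.1
  have h2 : L.card ≤ K.LS := hmem.2.1
  refine transfer K (h1.trans hLS) (h2.trans hLS) hLS ?_ hκ hκ' h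
  intro M _ _ x
  have hadj : ∀ a b : M, Adj L a b → a = b := by
    intro a b hab
    rcases hab with ⟨n, R, v, -, ⟨i, hi⟩, ⟨j, hj⟩⟩ | ⟨n, f, v, ha, hb⟩
    · match n, R, v, i, hi, j, hj with
      | 0, _, _, i, _, _, _ => exact i.elim0
      | 1, _, v, i, hi, j, hj => rw [← hi, ← hj, Subsingleton.elim i j]
      | n + 2, R, _, _, _, _, _ => exact ((hr n).false R).elim
    · match n, f, v, ha, hb with
      | 0, f, v, ha, hb =>
        rcases ha with ha | ⟨i, _⟩
        · rcases hb with hb | ⟨i, _⟩
          · rw [ha, hb]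
          · exact i.elim0
        · exact i.elim0
      | n + 1, f, _, _, _ => exact ((hf n).false f).elim
  have heqv : ∀ a b : M, Relation.EqvGen (Adj L) a b → a = b := by
    intro a b hab
    induction hab with
    | rel a b h => exact hadj a b h
    | refl a => rfl
    | symm a b _ ih => exact ih.symm
    | trans a b c _ _ ih1 ih2 => exact ih1.trans ih2
  have hsub : Subsingleton (component L x) := by
    refine ⟨fun a b => Subtype.ext ?_⟩
    exact (heqv x a a.2).symm.trans (heqv x b b.2)
  exact (mk_le_one_iff_set_subsingleton.2 (Set.subsingleton_coe _ |>.1 hsub)).trans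
    (one_lt_aleph0.le.trans (h1.trans hLS))

end Vale.Agent.Results.P307.UnaryVocabulary
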